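import Vale.Agent.P217.Core.PointTower
import Vale.Agent.P217.Tors.Deep
import Vale.Agent.P217.Core.EngineData

/-!
# P217: the motion of torsion points under an action close to the identity
-/

noncomputable section

namespace Vale.Agent.P217

open Tors

variable {p n : ℕ} [Fact p.Prime]

theorem coef_pow_card_pow (hn : n ≠ 0) (q : ℕ) (a : Coef p n) : a ^ p ^ (n * q) = a := by
  have : Fintype (Coef p n) := Fintype.ofFinite _
  rw [pow_mul, ← GaloisField.card p n hn, Nat.card_eq_fintype_card, FiniteField.pow_card_pow]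

theorem chi_natCast (hn : n ≠ 0) (k : ℕ) (a : Coef p n) : chi p n k a = a ^ p ^ k := by
  rw [chi, ← Int.natCast_emod, Int.toNat_natCast]
  conv_rhs => rw [← Nat.mod_add_div k n, add_comm, pow_add, pow_mul, coef_pow_card_pow hn]

theorem residueMap_surjective : Function.Surjective (residueMap p n) := fun a =>
  ⟨MvPowerSeries.C (WittVector.teichmuller p a), by simp [residueMap]⟩

theorem mem_maximalIdeal_iff (a : E0 p n) :
    a ∈ IsLocalRing.maximalIdeal (E0 p n) ↔ residueMap p n a = 0 := by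
  have := IsLocalRing.eq_maximalIdeal
    (RingHom.ker_isMaximal_of_surjective (residueMap p n) residueMap_surjective)
  rw [← this, RingHom.mem_ker]

namespace Point

variable (P : Point p n)

/-- `x` composed with the structure map of `W`. -/
def xW : W p n →+* P.K := P.x.comp (algebraMap (W p n) (E0 p n))

/-- The coefficient field in `P.K`, when `x p = 0`. -/
def coefHom (hp : P.x (p : E0 p n) = 0) : Coef p n →+* P.K :=
  (WittVector.constantCoeff : W p n →+* Coef p n).liftOfRightInverse (WittVector.teichmuller p)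
    (fun a => WittVector.teichmuller_coeff_zero p a)
    ⟨P.xW, fun a ha => by
      rw [WittVector.ker_constantCoeff, Ideal.mem_span_singleton] at ha
      obtain ⟨b, rfl⟩ := ha
      rw [RingHom.mem_ker, map_mul, map_natCast]
      rw [map_natCast] at hp
      rw [hp, zero_mul]⟩

theorem coefHom_eq (hp : P.x (p : E0 p n) = 0) (a : Coef p n) :
    P.coefHom hp a = P.x (algebraMap (W p n) (E0 p n) (WittVector.teichmuller p a)) := by
  have hc : WittVector.constantCoeff (WittVector.teichmuller p a) = a :=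
    WittVector.teichmuller_coeff_zero p a
  conv_lhs => rw [← hc]
  unfold coefHom
  exact RingHom.liftOfRightInverse_comp_apply _ _ _ _ _

theorem norm_coefHom (hp : P.x (p : E0 p n) = 0) {a : Coef p n} (ha : a ≠ 0) :
    ‖P.coefHom hp a‖ = 1 := by
  refine le_antisymm (P.coefHom_eq hp a ▸ P.norm_le _) ?_
  have h1 : P.coefHom hp a * P.coefHom hp a⁻¹ = 1 := by
    rw [← map_mul, mul_inv_cancel₀ ha, map_one]
  have h2 := congrArg (‖·‖) h1
  simp only [norm_mul, norm_one] at h2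
  have h3 : ‖P.coefHom hp a⁻¹‖ ≤ 1 := P.coefHom_eq hp a⁻¹ ▸ P.norm_le _
  calc (1 : ℝ) = ‖P.coefHom hp a‖ * ‖P.coefHom hp a⁻¹‖ := h2.symm
    _ ≤ ‖P.coefHom hp a‖ * 1 := mul_le_mul_of_nonneg_left h3 (norm_nonneg _)
    _ = _ := mul_one _

theorem charP (hp : P.x (p : E0 p n) = 0) : CharP P.K p :=
  (CharP.charP_iff_prime_eq_zero Fact.out).mpr (by rw [← map_natCast P.x]; exact hp)

theorem ev₁_C_mul_X_pow (c : E0 p n) (k : ℕ) {y : P.K} (hy : ‖y‖ < 1) :
    P.ev₁ (PowerSeries.C c * PowerSeries.X ^ k) y = P.x c * y ^ k := by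
  have hy' : ∀ _ : Unit, ‖y‖ < 1 := fun _ => hy
  induction k with
  | zero => rw [pow_zero, pow_zero, mul_one, mul_one]; exact P.ev_C c
  | succ k ih =>
    rw [pow_succ, ← mul_assoc, pow_succ, ← mul_assoc, ← ih]
    show P.ev _ _ = P.ev _ _ * y
    rw [P.ev_mul _ _ hy']
    congr 1
    exact P.ev_X ()

variable {F : FormalGroup (E0 p n)} [F.IsComm]

theorem add_comp (σ : E0 p n →ₐ[W p n] E0 p n)
    (hσ : ∀ a ∈ IsLocalRing.maximalIdeal (E0 p n), σ a ∈ IsLocalRing.maximalIdeal (E0 p n))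
    (a b : P.K) :
    (P.comp σ hσ).add F a b = P.add (F.map σ.toRingHom) a b :=
  P.ev_map σ hσ F.toPowerSeries _

theorem norm_ev₁_le {φ : PowerSeries (E0 p n)} (hφ : φ.constantCoeff = 0) {y : P.K}
    (hy : ‖y‖ < 1) : ‖P.ev₁ φ y‖ ≤ ‖y‖ :=
  P.norm_ev_le φ hφ (fun _ => hy) (fun _ => le_rfl) (norm_nonneg y)

/-- A homomorphism `F → σ F` on the points. -/
def pushHom (σ : E0 p n →ₐ[W p n] E0 p n)
    (hσ : ∀ a ∈ IsLocalRing.maximalIdeal (E0 p n), σ a ∈ IsLocalRing.maximalIdeal (E0 p n))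
    {φ : PowerSeries (E0 p n)}
    (hφ : IsHom F (F.map σ.toRingHom) φ) :
    (P.law F).Pt →+ ((P.comp σ hσ).law F).Pt :=
  AddMonoidHom.mk' (fun y => (⟨P.ev₁ φ y.val, (P.norm_ev₁_le hφ.1 y.norm_lt).trans_lt y.norm_lt⟩ :
    ((P.comp σ hσ).law F).Pt)) fun a b => DiscLaw.Pt.ext <| by
      show P.ev₁ φ (P.add F a.val b.val) = (P.comp σ hσ).add F (P.ev₁ φ a.val) (P.ev₁ φ b.val)
      rw [P.add_comp σ hσ, P.ev₁_isHom F hφ a.norm_lt b.norm_lt]

/-- Lifts of `x +_Γ a x ^ (p ^ m)` move points by about `a y ^ (p ^ m)`. -/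
theorem norm_push_sub_le {r : ℝ}
    (hr : ∀ a ∈ IsLocalRing.maximalIdeal (E0 p n), ‖P.x a‖ ≤ r)
    (hp : P.x (p : E0 p n) = 0) {a : Coef p n} {m : ℕ} {φ : PowerSeries (E0 p n)}
    (hφ : PowerSeries.map (residueMap p n) φ = testAut p n F a m) {y : P.K} (hy : ‖y‖ < 1) :
    ‖P.ev₁ φ y - y - P.coefHom hp a * y ^ p ^ m‖ ≤
      max r (‖y‖ * ‖P.coefHom hp a * y ^ p ^ m‖) := by
  set c := algebraMap (W p n) (E0 p n) (WittVector.teichmuller p a) with hc
  have hpm : p ^ m ≠ 0 := pow_ne_zero _ (Fact.out : p.Prime).ne_zero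
  set s : PowerSeries (E0 p n) := PowerSeries.C c * PowerSeries.X ^ p ^ m with hs
  have hs0 : s.constantCoeff = 0 := by simp [hs, zero_pow hpm]
  set φ0 : PowerSeries (E0 p n) := F.toPowerSeries.subst ![PowerSeries.X, s] with hφ0
  have hres : PowerSeries.map (residueMap p n) φ0 = testAut p n F a m := by
    rw [hφ0, FG.map_two _ F PowerSeries.constantCoeff_X hs0, hs, map_mul, map_pow,
      PowerSeries.map_X, PowerSeries.map_C]
    have : residueMap p n c = a := by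
      simp [hc, residueMap, MvPowerSeries.algebraMap_apply]
    rw [this]; rfl
  have hdiff : ∀ d, ‖P.x (MvPowerSeries.coeff d (φ - φ0))‖ ≤ r := fun d => by
    refine hr _ ((mem_maximalIdeal_iff _).mpr ?_)
    have h0 : PowerSeries.map (residueMap p n) (φ - φ0) = 0 := by rw [map_sub, hφ, hres, sub_self]
    have := congrArg (MvPowerSeries.coeff d) h0
    rw [map_zero] at this
    exact this
  have hy' : ∀ _ : Unit, ‖y‖ < 1 := fun _ => hy
  have h1 : ‖P.ev₁ φ y - P.ev₁ φ0 y‖ ≤ r := by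
    rw [ev₁, ev₁, ← P.ev_sub φ φ0 hy']
    exact P.norm_ev_le_of_coeff _ hdiff hy'
  set t := P.coefHom hp a * y ^ p ^ m with ht
  have hst : P.ev₁ s y = t := by rw [hs, P.ev₁_C_mul_X_pow _ _ hy, ht, P.coefHom_eq hp]
  have hev0 : P.ev₁ φ0 y = P.add F y t := by
    show P.ev (F.toPowerSeries.subst ![PowerSeries.X, s]) (fun _ : Unit => y) = _
    rw [P.ev_subst _ _ (fun i => by fin_cases i <;> first | exact PowerSeries.constantCoeff_X |
      exact hs0) hy', Point.add]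
    congr 1
    funext i; fin_cases i
    · exact P.ev_X ()
    · exact hst
  have ht1 : ‖t‖ < 1 := by
    rw [ht, norm_mul, norm_pow]
    exact lt_of_le_of_lt (mul_le_of_le_one_left (pow_nonneg (norm_nonneg _) _)
      (P.coefHom_eq hp a ▸ P.norm_le _)) (pow_lt_one₀ (norm_nonneg _) hy hpm)
  have h2 := P.norm_add_sub_le F hy ht1
  calc ‖P.ev₁ φ y - y - t‖ = ‖(P.ev₁ φ y - P.ev₁ φ0 y) + (P.add F y t - (y + t))‖ := by
        rw [hev0]; congr 1; ring
    _ ≤ max r (‖y‖ * ‖t‖) :=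
      (IsUltrametricDist.norm_add_le_max _ _).trans (max_le_max h1 h2)

/-- The main identity: the motion of `p ^ N • y` is `p ^ N • η` up to the motion of the point. -/
theorem exists_motion {r : ℝ} (hr : ∀ a ∈ IsLocalRing.maximalIdeal (E0 p n), ‖P.x a‖ ≤ r)
    (hp : P.x (p : E0 p n) = 0) (σ : E0 p n →ₐ[W p n] E0 p n)
    (hσ : ∀ a ∈ IsLocalRing.maximalIdeal (E0 p n), σ a ∈ IsLocalRing.maximalIdeal (E0 p n))
    {a : Coef p n} {m : ℕ}
    {φ : PowerSeries (E0 p n)} (hφ : PowerSeries.map (residueMap p n) φ = testAut p n F a m)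
    (hhom : IsHom F (F.map σ.toRingHom) φ) {ρ : ℝ} (hρ : ∀ c, ‖P.x (σ c) - P.x c‖ ≤ ρ)
    (N : ℕ) (y : (P.law F).Pt) :
    ∃ η : (P.law F).Pt,
      ‖η.val - P.coefHom hp a * y.val ^ p ^ m‖ ≤
        max r (‖y.val‖ * ‖P.coefHom hp a * y.val ^ p ^ m‖) ∧
      ‖P.ev₁ φ (p ^ N • y).val - (p ^ N • y).val - (p ^ N • η).val‖ ≤
        max ρ (‖(p ^ N • η).val‖ * ‖(p ^ N • y).val‖) := by
  let P' := P.comp σ hσ
  let y' : (P'.law F).Pt := ⟨y.val, y.norm_lt⟩
  let η' : (P'.law F).Pt := P.pushHom σ hσ hhom y - y'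
  let η : (P.law F).Pt := ⟨η'.val, η'.norm_lt⟩
  refine ⟨η, ?_, ?_⟩
  · set t := P.coefHom hp a * y.val ^ p ^ m
    have h1 := P.norm_push_sub_le hr hp hφ y.norm_lt
    have h2 : ‖P.add (F.map σ.toRingHom) η.val y.val - (η.val + y.val)‖ ≤ ‖η.val‖ * ‖y.val‖ :=
      P.norm_add_sub_le _ η.norm_lt y.norm_lt
    have h3 : P.add (F.map σ.toRingHom) η.val y.val = P.ev₁ φ y.val := by
      rw [← P.add_comp σ hσ]
      exact congrArg DiscLaw.Pt.val (sub_add_cancel (P.pushHom σ hσ hhom y) y')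
    rw [h3] at h2
    have hη : ‖η.val‖ = ‖P.ev₁ φ y.val - y.val‖ :=
      (P'.law F).norm_val_sub (P.pushHom σ hσ hhom y) y'
    have h4 : ‖P.ev₁ φ y.val - y.val‖ * ‖y.val‖ ≤ max r (‖y.val‖ * ‖t‖) := by
      have h5 : ‖P.ev₁ φ y.val - y.val‖ ≤ max (max r (‖y.val‖ * ‖t‖)) ‖t‖ := by
        calc _ = ‖(P.ev₁ φ y.val - y.val - t) + t‖ := by rw [sub_add_cancel]
          _ ≤ _ := (IsUltrametricDist.norm_add_le_max _ _).trans (max_le_max h1 le_rfl)
      refine (mul_le_mul_of_nonneg_right h5 (norm_nonneg _)).trans ?_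
      rw [max_mul_of_nonneg _ _ (norm_nonneg _), mul_comm ‖t‖]
      exact max_le (mul_le_of_le_one_right (le_max_of_le_right
        (mul_nonneg (norm_nonneg _) (norm_nonneg _))) y.norm_lt.le) (le_max_right _ _)
    calc ‖η.val - t‖
        = ‖(P.ev₁ φ y.val - y.val - t) + -(P.ev₁ φ y.val - (η.val + y.val))‖ := by congr 1; ring
      _ ≤ _ := (IsUltrametricDist.norm_add_le_max _ _).trans
          (max_le h1 (by rw [norm_neg]; exact h2.trans (hη ▸ h4)))
  · have hz : P.pushHom σ hσ hhom (p ^ N • y) = p ^ N • η' + p ^ N • y' := by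
      rw [← nsmul_add, sub_add_cancel, map_nsmul]
    let w : P.K := (p ^ N • η').val
    let w' : P.K := (p ^ N • y').val
    have hwn : ‖w‖ < 1 := (p ^ N • η').norm_lt
    have hwn' : ‖w'‖ < 1 := (p ^ N • y').norm_lt
    have hclose : ‖P.ev₁ φ (p ^ N • y).val - (w + w')‖ ≤ ‖w‖ * ‖w'‖ := by
      have h0 : P.ev₁ φ (p ^ N • y).val = (P.comp σ hσ).add F w w' := congrArg DiscLaw.Pt.val hz
      rw [h0, P.add_comp σ hσ]
      exact P.norm_add_sub_le _ hwn hwn'
    have hmap : ∀ (u : P.K) (hu : ‖u‖ < 1) (v v' : P.K),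
        v = P.ev₁ (nsmulSeries F (p ^ N)) u →
        v' = (P.comp σ hσ).ev₁ (nsmulSeries F (p ^ N)) u → ‖v' - v‖ ≤ ρ := by
      intro u hu v v' hv hv'
      have h1 : v' = P.ev (MvPowerSeries.map σ.toRingHom (nsmulSeries F (p ^ N)))
          (fun _ : Unit => u) := hv'.trans (P.ev_map σ hσ _ _)
      rw [hv, h1]
      exact P.norm_ev_map_sub_le σ.toRingHom hρ _ fun _ => hu
    have e1 : ‖w - (p ^ N • η).val‖ ≤ ρ :=
      hmap _ η.norm_lt _ _ (P.val_nsmul η _) ((P.comp σ hσ).val_nsmul η' _)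
    have e2 : ‖w' - (p ^ N • y).val‖ ≤ ρ :=
      hmap _ y.norm_lt _ _ (P.val_nsmul y _) ((P.comp σ hσ).val_nsmul y' _)
    have e3 : ‖w‖ * ‖w'‖ ≤ max ρ (‖(p ^ N • η).val‖ * ‖(p ^ N • y).val‖) := by
      have hle : ∀ {u u' : P.K}, ‖u' - u‖ ≤ ρ → ‖u'‖ ≤ max ρ ‖u‖ := fun {u u'} hu => by
        calc ‖u'‖ = ‖(u' - u) + u‖ := by rw [sub_add_cancel]
          _ ≤ _ := (IsUltrametricDist.norm_add_le_max _ _).trans (max_le_max hu le_rfl)
      rcases le_max_iff.mp (hle e1) with q1 | q1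
      · exact ((mul_le_of_le_one_right (norm_nonneg _) hwn'.le).trans q1).trans (le_max_left _ _)
      rcases le_max_iff.mp (hle e2) with q2 | q2
      · exact ((mul_le_of_le_one_left (norm_nonneg _) hwn.le).trans q2).trans (le_max_left _ _)
      exact (mul_le_mul q1 q2 (norm_nonneg _) (norm_nonneg _)).trans (le_max_right _ _)
    calc ‖P.ev₁ φ (p ^ N • y).val - (p ^ N • y).val - (p ^ N • η).val‖
        = ‖(P.ev₁ φ (p ^ N • y).val - (w + w'))
            + ((w - (p ^ N • η).val) + (w' - (p ^ N • y).val))‖ := by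
          congr 1; ring
      _ ≤ _ := (IsUltrametricDist.norm_add_le_max _ _).trans (max_le (hclose.trans e3)
          ((IsUltrametricDist.norm_add_le_max _ _).trans (max_le (e1.trans (le_max_left _ _))
            (e2.trans (le_max_left _ _)))))

/-- A bound `E` for the main terms on the `p`-torsion bounds the motion of the point. -/
theorem norm_move_le_of_main (hF : IsHazewinkel p n F) {h : ℕ} (hP : P.OnStratum h)
    (T : Tower (P.law F) p h (n - h))
    {r : ℝ} (hr : ∀ a ∈ IsLocalRing.maximalIdeal (E0 p n), ‖P.x a‖ ≤ r)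
    (σ : E0 p n →ₐ[W p n] E0 p n)
    (hσ : ∀ a ∈ IsLocalRing.maximalIdeal (E0 p n), σ a ∈ IsLocalRing.maximalIdeal (E0 p n))
    (hP' : (P.comp σ hσ).OnStratum h)
    {a : Coef p n} {m : ℕ} {φ : PowerSeries (E0 p n)}
    (hφ : PowerSeries.map (residueMap p n) φ = testAut p n F a m)
    (hhom : IsHom F (F.map σ.toRingHom) φ) (hφ1 : IsUnit (PowerSeries.coeff 1 φ))
    (N : ℕ) (pre : (P.law F).Pt → (P.law F).Pt) (hpre : ∀ s ∈ T.roots 1, p ^ N • pre s = s)
    {E : ℝ} (hE0 : 0 ≤ E)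
    (hE : ∀ s ∈ T.roots 1, ∀ η : (P.law F).Pt,
      ‖η.val - P.coefHom hP.x_p a * (pre s).val ^ p ^ m‖ ≤
        max r (‖(pre s).val‖ * ‖P.coefHom hP.x_p a * (pre s).val ^ p ^ m‖) →
      ‖(p ^ N • η).val‖ ≤ E) :
    ∀ c, ‖P.x (σ c) - P.x c‖ ≤ E ^ p ^ h := by
  have := P.charP hP.x_p
  have hne : (T.roots 1).Nonempty := ⟨0, T.zero_mem_roots 1⟩
  set D := (T.roots 1).sup' hne fun s => ‖P.ev₁ φ s.val ^ p ^ h - s.val ^ p ^ h‖ with hD
  have hDle : ∀ s ∈ T.roots 1, ‖P.ev₁ φ s.val ^ p ^ h - s.val ^ p ^ h‖ ≤ D := fun s hs =>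
    Finset.le_sup' (fun s : (P.law F).Pt => ‖P.ev₁ φ s.val ^ p ^ h - s.val ^ p ^ h‖) hs
  have hmove := P.norm_move_le hF hP T σ hσ hP' φ hhom hφ1 hDle
  have hlt : ∀ s : (P.law F).Pt, ‖P.ev₁ φ s.val - s.val‖ < 1 := fun s => by
    rw [sub_eq_add_neg]
    exact (IsUltrametricDist.norm_add_le_max _ _).trans_lt
      (max_lt ((P.norm_ev₁_le hhom.1 s.norm_lt).trans_lt s.norm_lt) (by simpa using s.norm_lt))
  have hqne : p ^ h ≠ 0 := pow_ne_zero _ (Fact.out : p.Prime).ne_zero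
  have hDlt : D < 1 := (Finset.sup'_lt_iff hne).mpr fun s _ => by
    rw [← sub_pow_char_pow, norm_pow]
    exact pow_lt_one₀ (norm_nonneg _) (hlt s) hqne
  have hD0 : 0 ≤ D := (norm_nonneg _).trans (hDle 0 (T.zero_mem_roots 1))
  have hstep : D ≤ max D E ^ p ^ h := by
    refine Finset.sup'_le hne _ fun s hs => ?_
    rw [← sub_pow_char_pow, norm_pow]
    refine pow_le_pow_left₀ (norm_nonneg _) ?_ _
    obtain ⟨η, h1, h2⟩ := P.exists_motion hr hP.x_p σ hσ hφ hhom hmove N (pre s)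
    rw [hpre s hs] at h2
    have h3 := hE s hs η h1
    calc ‖P.ev₁ φ s.val - s.val‖
        = ‖(P.ev₁ φ s.val - s.val - (p ^ N • η).val) + (p ^ N • η).val‖ := by rw [sub_add_cancel]
      _ ≤ max D E := by
        refine (IsUltrametricDist.norm_add_le_max _ _).trans (max_le (h2.trans (max_le_max le_rfl
          ?_)) (h3.trans (le_max_right _ _)))
        exact (mul_le_of_le_one_right (norm_nonneg _) s.norm_lt.le).trans h3
  have hDE : D ≤ E ^ p ^ h := by
    rcases le_or_gt D E with hle | hgt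
    · rwa [max_eq_right hle] at hstep
    · rw [max_eq_left hgt.le] at hstep
      exact absurd hstep (not_le.mpr (pow_lt_self_of_lt_one₀ (hE0.trans_lt hgt) hDlt
        (Nat.one_lt_pow (Nat.one_le_iff_ne_zero.mp hP.one_le) (Fact.out : p.Prime).one_lt)))
  exact fun c => (hmove c).trans hDE

end Point

end Vale.Agent.P217
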