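import Vale.Agent.P217.Core.Disp.Motion
import Vale.Agent.P217.Core.PointTower
import Vale.Agent.P217.Core.Transport
import Vale.Agent.P217.LT.Universal
import Vale.Agent.P217.LT.Heights
import Vale.Agent.P217.Tors.Coeffs

/-!
# P217: the ring map moving the rows, for the automorphisms `x +_Γ a x ^ (p ^ (n N - δ))`
-/

noncomputable section

namespace Vale.Agent.P217

open Tors Filter Topology
open scoped Classical

variable {p n : ℕ} [Fact p.Prime]

namespace Point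

variable (P : Point p n) {F : FormalGroup (E0 p n)} [F.IsComm] {h : ℕ}

variable (T : Tower (P.law F) p h (n - h))

/-- The reference element of a row at level `N`. -/
def rowRef (z : (P.law F).Pt) (δ N : ℕ) : P.K := (T.chain z N).val ^ p ^ (n * N - δ)

/-- The coefficient of the `κ`-th character in the motion of the row `z`, measured against `z'`. -/
def rowXi (hp : P.x (p : E0 p n) = 0) (z z' : (P.law F).Pt) (δ N : ℕ) (κ : ℤ) : P.K :=
  haveI := P.charP hp
  T.rowCoeff N (z.v / (p : ℝ) ^ δ) (P.rowRef T z' δ N) (P.rowRef T z δ N / P.rowRef T z' δ N) κ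

/-- The size of the main term of the row `z`. -/
def rowB (z z' : (P.law F).Pt) (δ N : ℕ) : ℝ :=
  ‖T.normConst N (z.v / (p : ℝ) ^ δ) (P.rowRef T z' δ N)‖

variable {T}

theorem rowRef_ne_zero {z : (P.law F).Pt} (hz : T.IsTors z) (h0 : z ≠ 0) (δ N : ℕ) :
    P.rowRef T z δ N ≠ 0 :=
  pow_ne_zero _ (DiscLaw.Pt.val_ne_zero (T.chain_ne_zero hz h0 N))

theorem vv_rowRef (hP : P.OnStratum h) {z : (P.law F).Pt} (hz : T.IsTors z) (h0 : z ≠ 0)
    (hv : z.v < T.rmin) {δ N : ℕ} (hδ : δ ≤ n * N) :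
    vv (P.rowRef T z δ N) = z.v / (p : ℝ) ^ δ := by
  have hp0 : (p : ℝ) ≠ 0 := T.p_pos.ne'
  rw [rowRef, vv_pow, show vv (T.chain z N).val = (T.chain z N).v from rfl, (T.v_chain hz h0 hv N).1,
    Nat.cast_pow, Nat.add_sub_cancel' hP.lt.le]
  have : (p : ℝ) ^ (n * N) = (p : ℝ) ^ (n * N - δ) * (p : ℝ) ^ δ := by
    rw [← pow_add, Nat.sub_add_cancel hδ]
  rw [this]
  field_simp

theorem norm_rowLam (hP : P.OnStratum h) {z z' : (P.law F).Pt} (hz : T.IsTors z) (h0 : z ≠ 0)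
    (hv : z.v < T.rmin) (hz' : T.IsTors z') (h0' : z' ≠ 0) (heq : z'.v = z.v) {δ N : ℕ}
    (hδ : δ ≤ n * N) : ‖P.rowRef T z δ N / P.rowRef T z' δ N‖ = 1 :=
  norm_one_of_vv_eq (P.rowRef_ne_zero hz h0 δ N) (P.rowRef_ne_zero hz' h0' δ N)
    (by rw [P.vv_rowRef hP hz h0 hv hδ, P.vv_rowRef hP hz' h0' (heq ▸ hv) hδ, heq])

theorem log_rowB (hP : P.OnStratum h) {z z' : (P.law F).Pt} (hv : z.v < T.rmin)
    (hz : z ≠ 0) (hz' : T.IsTors z') (h0' : z' ≠ 0) (heq : z'.v = z.v) {δ N : ℕ} (hδ : δ ≤ n * N)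
    (hs : T.Stable N (z.v / (p : ℝ) ^ δ)) :
    Real.log (P.rowB T z z' δ N) =
      -((p : ℝ) ^ (h * N) * T.Phi (z.v / (p : ℝ) ^ δ) - T.kappa) := by
  have hV : 0 < z.v / (p : ℝ) ^ δ := div_pos (DiscLaw.Pt.v_pos hz) (pow_pos T.p_pos _)
  have h1 := T.vv_normConst (N := N) (V := z.v / (p : ℝ) ^ δ) (P.rowRef_ne_zero hz' h0' δ N)
    (by rw [P.vv_rowRef hP hz' h0' (heq ▸ hv) hδ, heq])
  rw [T.phiN_eq hV hs, vv] at h1
  unfold rowB
  linarith

variable (T)

include T in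
theorem tendsto_scale : Tendsto (fun N : ℕ => (p : ℝ) ^ (h * N)) atTop atTop := by
  simp only [pow_mul]
  exact tendsto_pow_atTop_atTop_of_one_lt T.one_lt_ph

theorem eventually_stable {V : ℝ} (hV : 0 < V) : ∀ᶠ N in atTop, T.Stable N V := by
  obtain ⟨N, hN⟩ := T.exists_stable hV
  exact eventually_atTop.mpr ⟨N, fun M hM => T.stable_mono hV hN hM le_rfl⟩

/-- The moving ring map. -/
theorem eventually_move (hF : IsHazewinkel p n F) (hP : P.OnStratum h)
    (hinv : IsNearInvariant p n F (RingHom.ker P.x))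
    {r : ℝ} (hr0 : 0 < r) (hr : ∀ a ∈ IsLocalRing.maximalIdeal (E0 p n), ‖P.x a‖ ≤ r)
    {c : ℕ} (z z' : Fin c → (P.law F).Pt)
    (hz : ∀ i, T.IsTors (z i) ∧ z i ≠ 0 ∧ (z i).v < T.rmin)
    (hz' : ∀ i, T.IsTors (z' i) ∧ z' i ≠ 0 ∧ (z' i).v = (z i).v)
    {δ : ℕ} (hδ : δ ≤ n) (hμ : ∀ i, (z i).v / (p : ℝ) ^ δ < -Real.log r)
    {Vs : ℝ} (hVs : 0 < Vs) (hVsr : Vs ≤ -Real.log r) {J : ℕ}
    (hJ : ∀ s ∈ T.roots 1, s ≠ 0 → (T.chain s J).v < T.rmin ∧
      Vs ≤ (T.chain s J).v * (p : ℝ) ^ (n * J) / (p : ℝ) ^ δ)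
    (hgap : ∀ i, T.Phi ((z i).v / (p : ℝ) ^ δ) < (p : ℝ) ^ h * T.Phi Vs) :
    ∀ᶠ N in atTop, ∀ a : Coef p n,
      ∃ τ : Subring.closure ((P.x.range : Set P.K) ∪ Set.range fun i => (z i).val) →+* P.K,
        (∀ i, ‖τ ⟨(z i).val, Subring.subset_closure (Or.inr ⟨i, rfl⟩)⟩ - (z i).val -
            ∑ κ ∈ Finset.Icc (T.lo ((z i).v / (p : ℝ) ^ δ) : ℤ) (T.hi ((z i).v / (p : ℝ) ^ δ)),
              P.rowXi T hP.x_p (z i) (z' i) δ N κ *
                P.coefHom hP.x_p (chi p n (κ + (h * N : ℕ)) a)‖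
              < P.rowB T (z i) (z' i) δ N) ∧
        ∀ y (hy : y ∈ P.x.range), ‖τ ⟨y, Subring.subset_closure (Or.inl hy)⟩ - y‖ ≤
          Real.exp ((p : ℝ) ^ h * T.kappa - (p : ℝ) ^ (h * N) * ((p : ℝ) ^ h * T.Phi Vs)) := by
  have := P.charP hP.x_p
  have hn : 1 ≤ n := le_trans hP.one_le hP.lt.le
  have hn0 : n ≠ 0 := Nat.one_le_iff_ne_zero.mp hn
  obtain ⟨M, hM⟩ := hinv
  obtain ⟨r', hr'0, hr'1, hr'⟩ := P.exists_norm_le_pow
  obtain ⟨Nr, hNr⟩ := exists_pow_lt_of_lt_one (norm_pos_iff.mpr hP.x_ne) hr'1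
  obtain ⟨M', hM'⟩ := rigidity hF hn Nr
  rw [eventually_all]
  intro a
  choose σ hσ using fun m : ℕ => show ∃ σ : E0 p n →ₐ[W p n] E0 p n,
      1 ≤ m → IsAction p n F (testAut p n F a m) σ from by
    by_cases hm : 1 ≤ m
    · exact ⟨_, fun _ => (existsUnique_action hF hn _ (isAut_testAut hF hn a hm)).exists.choose_spec⟩
    · exact ⟨AlgHom.id _ _, fun h => absurd h hm⟩
  have hex : ∀ m, ∃ φ : PowerSeries (E0 p n), 1 ≤ m →
      PowerSeries.map (residueMap p n) φ = testAut p n F a m ∧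
        IsHom F (F.map (σ m).toRingHom) φ := fun m => by
    by_cases hm : 1 ≤ m
    · obtain ⟨φ, hφ⟩ := hσ m hm; exact ⟨φ, fun _ => hφ⟩
    · exact ⟨0, fun h => absurd h hm⟩
  choose φ hφ using hex
  let e : ℕ → ℕ := fun N => n * N - δ
  have he : ∀ K, ∀ᶠ N in atTop, K ≤ e N := fun K => eventually_atTop.mpr ⟨K + δ, fun N hN => by
    have : N ≤ n * N := Nat.le_mul_of_pos_left N (by omega)
    simp only [e]; omega⟩
  -- facts about the single automorphisms
  have hone : ∀ N, 1 ≤ e N → M ≤ e N → M' ≤ e N →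
      (∀ x ∈ RingHom.ker P.x, P.x (σ (e N) x) = 0) ∧
      (P.comp (σ (e N)) (algHom_maximalIdeal_le _)).OnStratum h ∧
      IsUnit (PowerSeries.coeff 1 (φ (e N))) := by
    intro N h1 h2 h3
    have hg := isAut_testAut hF hn a (e := e N) h1
    have hdvd : ∀ M0, M0 ≤ e N → PowerSeries.X ^ p ^ M0 ∣ testAut p n F a (e N) - PowerSeries.X :=
      fun M0 hM0 => (pow_dvd_pow _ (Nat.pow_le_pow_right (Fact.out : p.Prime).pos hM0)).trans
        (dvd_testAut_sub_X hF a (e N))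
    have hker : ∀ x ∈ RingHom.ker P.x, P.x (σ (e N) x) = 0 := fun x hx =>
      hM _ _ hg (hdvd M h2) (hσ _ h1) x hx
    have hclose : ∀ x, ‖P.x (σ (e N) x) - P.x x‖ ≤ r' ^ Nr := fun x => by
      rw [← map_sub]
      exact hr' Nr _ (hM' _ _ hg (hdvd M' h3) (hσ _ h1) x)
    refine ⟨hker, ⟨hP.one_le, hP.lt, hker _ hP.x_p, fun l hl hlh => hker _ (hP.x_low l hl hlh),
      fun h0 => ?_⟩, ?_⟩
    · have := hclose (u p n h)
      rw [show P.x (σ (e N) (u p n h)) = 0 from h0, zero_sub, norm_neg] at this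
      exact absurd this (not_le.mpr hNr)
    · rw [← IsLocalRing.notMem_maximalIdeal, mem_maximalIdeal_iff]
      have h4 := congrArg (PowerSeries.coeff 1) (hφ _ h1).1
      rw [PowerSeries.coeff_map] at h4
      rw [h4]
      exact hg.2.ne_zero
  -- the sizes
  let E : ℕ → ℝ := fun N => Real.exp (-T.phiN N Vs)
  have hq : (1 : ℝ) < (p : ℝ) ^ h := T.one_lt_ph
  have hEq : ∀ N, T.Stable N Vs → E N ^ p ^ h =
      Real.exp ((p : ℝ) ^ h * T.kappa - (p : ℝ) ^ (h * N) * ((p : ℝ) ^ h * T.Phi Vs)) := fun N hN => by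
    simp only [E]
    rw [← Real.exp_nat_mul, T.phiN_eq hVs hN]
    congr 1
    push_cast
    ring
  have hE0 : Tendsto (fun N => E N ^ p ^ h) atTop (𝓝 0) := by
    refine Tendsto.congr' ((P.eventually_stable T hVs).mono fun N hN => (hEq N hN).symm) ?_
    refine Real.tendsto_exp_atBot.comp (tendsto_atBot_add_const_left _ _ ?_)
    exact (P.tendsto_scale T).atTop_mul_const
      (mul_pos (pow_pos T.p_pos _) (T.Phi_pos hVs)) |> tendsto_neg_atTop_atBot.comp
  have hV : ∀ i, 0 < (z i).v / (p : ℝ) ^ δ := fun i =>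
    div_pos (DiscLaw.Pt.v_pos (hz i).2.1) (pow_pos T.p_pos _)
  have hcond : ∀ᶠ N in atTop, 1 ≤ e N ∧ M ≤ e N ∧ M' ≤ e N ∧ δ ≤ n * N ∧ J ≤ N ∧ T.Stable N Vs ∧
      ∀ i, T.Stable N ((z i).v / (p : ℝ) ^ δ) ∧
        E N ^ p ^ h < P.rowB T (z i) (z' i) δ N := by
    have hδN : ∀ᶠ N in atTop, δ ≤ n * N := eventually_atTop.mpr
      ⟨δ, fun N hN => hN.trans (Nat.le_mul_of_pos_left N (by omega))⟩
    refine (he 1).and ((he M).and ((he M').and (hδN.and ((eventually_ge_atTop J).and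
      ((P.eventually_stable T hVs).and (eventually_all.mpr fun i => ?_))))))
    have hgap' : 0 < (p : ℝ) ^ h * T.Phi Vs - T.Phi ((z i).v / (p : ℝ) ^ δ) := sub_pos.mpr (hgap i)
    filter_upwards [P.eventually_stable T (hV i), P.eventually_stable T hVs, hδN,
      ((P.tendsto_scale T).atTop_mul_const hgap').eventually_gt_atTop
        (((p : ℝ) ^ h - 1) * T.kappa)] with N h1 h2 h3 h4
    refine ⟨h1, ?_⟩
    have hB : 0 < P.rowB T (z i) (z' i) δ N :=
      norm_pos_iff.mpr (T.normConst_ne_zero (P.rowRef_ne_zero (hz' i).1 (hz' i).2.1 δ N))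
    rw [hEq N h2, ← Real.lt_log_iff_exp_lt hB,
      P.log_rowB hP (hz i).2.2 (hz i).2.1 (hz' i).1 (hz' i).2.1 (hz' i).2.2 h3 h1]
    linarith
  -- the estimate for one `N`
  have hest : ∀ᶠ N in atTop, (∀ x, ‖P.x (σ (e N) x) - P.x x‖ ≤ E N ^ p ^ h) ∧
      ∀ i, ‖P.ev₁ (φ (e N)) (z i).val - (z i).val -
          ∑ κ ∈ Finset.Icc (T.lo ((z i).v / (p : ℝ) ^ δ) : ℤ) (T.hi ((z i).v / (p : ℝ) ^ δ)),
            P.rowXi T hP.x_p (z i) (z' i) δ N κ *
              P.coefHom hP.x_p (chi p n (κ + (h * N : ℕ)) a)‖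
            < P.rowB T (z i) (z' i) δ N := by
    filter_upwards [hcond] with N ⟨h1, h2, h3, hδN, hJN, hsVs, hrow⟩
    obtain ⟨-, hP', hφ1⟩ := hone N h1 h2 h3
    obtain ⟨hφres, hhom⟩ := hφ _ h1
    set t := P.coefHom hP.x_p a with ht
    have ht1 : ‖t‖ ≤ 1 := by rw [ht, P.coefHom_eq]; exact P.norm_le _
    have hmove := P.norm_move_le_of_main hF hP T hr (σ (e N)) (algHom_maximalIdeal_le _) hP'
      hφres hhom hφ1 N (fun s => if s = 0 then 0 else T.chain s N)
      (fun s hs => by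
        by_cases h0 : s = 0
        · simp [h0]
        · rw [if_neg h0, T.pow_smul_chain ⟨1, hs⟩])
      (Real.exp_pos (-T.phiN N Vs)).le
      (fun s hs η hη => by
        refine T.v_le_smul_pos N hVs ?_
        have hre : r ≤ Real.exp (-Vs) := by
          rw [← Real.log_le_iff_le_exp hr0]; linarith
        set y := (if s = 0 then 0 else T.chain s N) with hy
        have hye : ‖t * y.val ^ p ^ e N‖ ≤ Real.exp (-Vs) := by
          rw [norm_mul, norm_pow]
          refine (mul_le_of_le_one_left (pow_nonneg (norm_nonneg _) _) ht1).trans ?_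
          by_cases h0 : s = 0
          · rw [hy, if_pos h0, DiscLaw.val_zero, norm_zero,
              zero_pow (pow_ne_zero _ (Fact.out : p.Prime).ne_zero)]
            exact (Real.exp_pos _).le
          · rw [hy, if_neg h0]
            obtain ⟨hJr, hJV⟩ := hJ s hs h0
            have hne := DiscLaw.Pt.val_ne_zero (T.chain_ne_zero ⟨1, hs⟩ h0 N)
            rw [← Real.log_le_iff_le_exp (pow_pos (norm_pos_iff.mpr hne) _), Real.log_pow]
            have hv := (T.v_chain (T.isTors_chain ⟨1, hs⟩ J) (T.chain_ne_zero ⟨1, hs⟩ h0 J) hJr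
              (N - J)).1
            rw [← T.chain_add, Nat.sub_add_cancel hJN, Nat.add_sub_cancel' hP.lt.le,
              DiscLaw.Pt.v, vv] at hv
            have hdiv : (p : ℝ) ^ (n * N - δ) * ((T.chain s J).v / (p : ℝ) ^ (n * (N - J)))
                = (T.chain s J).v * (p : ℝ) ^ (n * J) / (p : ℝ) ^ δ := by
              have e1 : (p : ℝ) ^ (n * N - δ) * (p : ℝ) ^ δ
                  = (p : ℝ) ^ (n * J) * (p : ℝ) ^ (n * (N - J)) := by
                rw [← pow_add, ← pow_add, Nat.sub_add_cancel hδN, ← mul_add,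
                  Nat.add_sub_cancel' hJN]
              have := (pow_pos T.p_pos δ).ne'
              have := (pow_pos T.p_pos (n * (N - J))).ne'
              field_simp
              linear_combination (T.chain s J).v * e1
            rw [Nat.cast_pow, show Real.log ‖(T.chain s N).val‖ =
              -((T.chain s J).v / (p : ℝ) ^ (n * (N - J))) by rw [← hv, neg_neg]]
            simp only [e, mul_neg, hdiv]
            linarith
        calc ‖η.val‖ = ‖(η.val - t * y.val ^ p ^ e N) + t * y.val ^ p ^ e N‖ := by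
              rw [sub_add_cancel]
          _ ≤ Real.exp (-Vs) := (IsUltrametricDist.norm_add_le_max _ _).trans (max_le (hη.trans
              (max_le hre ((mul_le_of_le_one_left (norm_nonneg _) y.norm_lt.le).trans hye))) hye))
    refine ⟨hmove, fun i => ?_⟩
    obtain ⟨hsi, hEB⟩ := hrow i
    obtain ⟨hzt, hz0, hzv⟩ := hz i
    obtain ⟨hzt', hz0', hzv'⟩ := hz' i
    obtain ⟨η, hη1, hη2⟩ := P.exists_motion hr hP.x_p (σ (e N)) (algHom_maximalIdeal_le _)
      hφres hhom hmove N (T.chain (z i) N)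
    rw [T.pow_smul_chain hzt] at hη2
    have hZ := P.rowRef_ne_zero hzt' hz0' δ N
    have hZV : vv (P.rowRef T (z' i) δ N) = (z i).v / (p : ℝ) ^ δ := by
      rw [P.vv_rowRef hP hzt' hz0' (hzv' ▸ hzv) hδN, hzv']
    have hlam := P.norm_rowLam hP hzt hz0 hzv hzt' hz0' hzv' hδN
    have hlz : P.rowRef T (z i) δ N / P.rowRef T (z' i) δ N * P.rowRef T (z' i) δ N
        = (T.chain (z i) N).val ^ p ^ e N := by rw [div_mul_cancel₀ _ hZ]; rfl
    have hη : ‖η.val - t * (P.rowRef T (z i) δ N / P.rowRef T (z' i) δ N *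
        P.rowRef T (z' i) δ N)‖ < ‖P.rowRef T (z' i) δ N‖ := by
      rw [hlz]
      refine hη1.trans_lt (max_lt ?_ ?_)
      · rw [← Real.log_lt_log_iff hr0 (norm_pos_iff.mpr hZ)]
        have := hμ i
        rw [← hZV, vv] at this
        linarith
      · have hn1 : ‖t * (T.chain (z i) N).val ^ p ^ e N‖ ≤ ‖P.rowRef T (z' i) δ N‖ := by
          rw [← hlz, norm_mul, norm_mul, hlam, one_mul]
          exact mul_le_of_le_one_left (norm_nonneg _) ht1
        exact (mul_le_mul_of_nonneg_left hn1 (norm_nonneg _)).trans_lt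
          (mul_lt_of_lt_one_left (norm_pos_iff.mpr hZ) (T.chain (z i) N).norm_lt)
    have hsum := T.norm_smul_sub_rowSum (hV i) hsi hZ hZV ht1 hlam hη
    have hchi : ∀ κ ∈ Finset.Icc (T.lo ((z i).v / (p : ℝ) ^ δ) : ℤ) (T.hi ((z i).v / (p : ℝ) ^ δ)),
        P.coefHom hP.x_p (chi p n (κ + (h * N : ℕ)) a) = t ^ p ^ (h * N + κ.toNat) := fun κ hκ => by
      have : κ + ((h * N : ℕ) : ℤ) = ((h * N + κ.toNat : ℕ) : ℤ) := by
        have := (Finset.mem_Icc.mp hκ).1
        push_cast; omega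
      rw [this, chi_natCast hn0, map_pow, ← ht]
    rw [Finset.sum_congr rfl fun κ hκ => by rw [hchi κ hκ]]
    unfold rowXi rowB at *
    set S := ∑ κ ∈ Finset.Icc (T.lo ((z i).v / (p : ℝ) ^ δ) : ℤ) (T.hi ((z i).v / (p : ℝ) ^ δ)),
      T.rowCoeff N ((z i).v / (p : ℝ) ^ δ) (P.rowRef T (z' i) δ N)
        (P.rowRef T (z i) δ N / P.rowRef T (z' i) δ N) κ * t ^ p ^ (h * N + κ.toNat) with hS
    set B := ‖T.normConst N ((z i).v / (p : ℝ) ^ δ) (P.rowRef T (z' i) δ N)‖
    have hB : 0 < B := norm_pos_iff.mpr (T.normConst_ne_zero hZ)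
    have hSB : ‖S‖ ≤ B := by
      obtain ⟨w, hw, hwle⟩ := IsUltrametricDist.exists_norm_finsetSum_le
        (Finset.Icc (T.lo ((z i).v / (p : ℝ) ^ δ) : ℤ) (T.hi ((z i).v / (p : ℝ) ^ δ)))
        (fun κ => T.rowCoeff N ((z i).v / (p : ℝ) ^ δ) (P.rowRef T (z' i) δ N)
          (P.rowRef T (z i) δ N / P.rowRef T (z' i) δ N) κ * t ^ p ^ (h * N + κ.toNat))
      refine hwle.trans ?_
      rw [norm_mul, norm_pow]
      exact (mul_le_of_le_one_right (norm_nonneg _) (pow_le_one₀ (norm_nonneg _) ht1)).trans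
        (T.norm_rowCoeff_le N _ _ hlam w)
    have hb : ‖(p ^ N • η).val‖ ≤ B := by
      calc ‖(p ^ N • η).val‖ = ‖((p ^ N • η).val - S) + S‖ := by rw [sub_add_cancel]
        _ ≤ B := (IsUltrametricDist.norm_add_le_max _ _).trans (max_le hsum.le hSB)
    calc ‖P.ev₁ (φ (e N)) (z i).val - (z i).val - S‖
        = ‖(P.ev₁ (φ (e N)) (z i).val - (z i).val - (p ^ N • η).val) + ((p ^ N • η).val - S)‖ := by
          congr 1; ring
      _ < B := (IsUltrametricDist.norm_add_le_max _ _).trans_lt (max_lt (hη2.trans_lt (max_lt hEB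
          ((mul_le_mul_of_nonneg_right hb (norm_nonneg _)).trans_lt
            (mul_lt_of_lt_one_right hB (z i).norm_lt)))) hsum)
  -- transport
  choose Mi hMi using fun i => (hz i).1
  choose Q hQm hQ using fun i => exists_torsion_poly (F := F) hF hn (Mi i)
  have hB0 : ∀ i, Tendsto (fun N => P.rowB T (z i) (z' i) δ N) atTop (𝓝 0) := fun i => by
    have hev : ∀ᶠ N in atTop, P.rowB T (z i) (z' i) δ N =
        Real.exp (T.kappa + -((p : ℝ) ^ (h * N) * T.Phi ((z i).v / (p : ℝ) ^ δ))) := by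
      filter_upwards [hcond] with N ⟨_, _, _, hδN, _, _, hrow⟩
      have hB : 0 < P.rowB T (z i) (z' i) δ N :=
        norm_pos_iff.mpr (T.normConst_ne_zero (P.rowRef_ne_zero (hz' i).1 (hz' i).2.1 δ N))
      rw [← Real.exp_log hB,
        P.log_rowB hP (hz i).2.2 (hz i).2.1 (hz' i).1 (hz' i).2.1 (hz' i).2.2 hδN (hrow i).1]
      congr 1; ring
    refine Tendsto.congr' (hev.mono fun N hN => hN.symm) ?_
    exact Real.tendsto_exp_atBot.comp (tendsto_atBot_add_const_left _ _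
      (tendsto_neg_atTop_atBot.comp ((P.tendsto_scale T).atTop_mul_const (T.Phi_pos (hV i)))))
  have hτ := exists_transport P.x (fun N => P.x.comp (σ (e N)).toRingHom) P.norm_le
    (hcond.mono fun N ⟨h1, h2, h3, _⟩ x hx => (hone N h1 h2 h3).1 x hx)
    (fun x => tendsto_iff_norm_sub_tendsto_zero.mpr <| squeeze_zero'
      (Eventually.of_forall fun _ => norm_nonneg _) (hest.mono fun N hN => hN.1 x) hE0)
    (fun i => (z i).val) (fun N i => P.ev₁ (φ (e N)) (z i).val) (fun i => (z i).norm_lt.le) Q hQm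
    (fun i => hQ i P (z i) ((T.mem_roots _ _).mp (hMi i)))
    (hcond.mono fun N ⟨h1, h2, h3, _⟩ i => by
      have hφ2 := (hφ _ h1).2
      have hh := hQ i _ (P.pushHom (σ (e N)) (algHom_maximalIdeal_le _) hφ2
        (z i)) (by rw [← map_nsmul, (T.mem_roots _ _).mp (hMi i), map_zero])
      exact hh)
    (fun i => tendsto_iff_norm_sub_tendsto_zero.mpr <| squeeze_zero'
      (Eventually.of_forall fun _ => norm_nonneg _) (by
        filter_upwards [hest, hcond] with N hN ⟨_, _, _, hδN, _, _, hrow⟩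
        have h5 := hN.2 i
        set S := ∑ κ ∈ Finset.Icc (T.lo ((z i).v / (p : ℝ) ^ δ) : ℤ)
          (T.hi ((z i).v / (p : ℝ) ^ δ)), P.rowXi T hP.x_p (z i) (z' i) δ N κ *
            P.coefHom hP.x_p (chi p n (κ + (h * N : ℕ)) a)
        calc ‖P.ev₁ (φ (e N)) (z i).val - (z i).val‖
            = ‖(P.ev₁ (φ (e N)) (z i).val - (z i).val - S) + S‖ := by rw [sub_add_cancel]
          _ ≤ P.rowB T (z i) (z' i) δ N := by
            refine (IsUltrametricDist.norm_add_le_max _ _).trans (max_le h5.le ?_)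
            obtain ⟨w, -, hwle⟩ := IsUltrametricDist.exists_norm_finsetSum_le
              (Finset.Icc (T.lo ((z i).v / (p : ℝ) ^ δ) : ℤ) (T.hi ((z i).v / (p : ℝ) ^ δ)))
              (fun κ => P.rowXi T hP.x_p (z i) (z' i) δ N κ *
                P.coefHom hP.x_p (chi p n (κ + (h * N : ℕ)) a))
            refine hwle.trans ?_
            rw [norm_mul, P.coefHom_eq]
            exact (mul_le_of_le_one_right (norm_nonneg _) (P.norm_le _)).trans
              (T.norm_rowCoeff_le N _ _ (P.norm_rowLam hP (hz i).1 (hz i).2.1 (hz i).2.2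
                (hz' i).1 (hz' i).2.1 (hz' i).2.2 hδN) w)) (hB0 i))
  filter_upwards [hτ, hest, hcond] with N ⟨τ, hτA, hτT⟩ hN ⟨_, _, _, _, _, hsVs, _⟩
  refine ⟨τ, fun i => by rw [hτT i]; exact hN.2 i, fun y hy => ?_⟩
  obtain ⟨b, rfl⟩ := hy
  rw [hτA b, ← hEq N hsVs]
  exact hN.1 b

end Point

end Vale.Agent.P217
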