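import Vale.Agent.P217.Core.Disp.Moved

/-!
# P217: the residue of the pair
-/

noncomputable section

namespace Vale.Agent.P217

open Tors Filter

variable {p n : ℕ} [Fact p.Prime]

namespace Point

variable (P : Point p n) {F : FormalGroup (E0 p n)} [F.IsComm] {h : ℕ}
variable (T : Tower (P.law F) p h (n - h))

theorem norm_pairMu_sub (hP : P.OnStratum h) {za zb : (P.law F).Pt} (hza : T.IsTors za)
    (hza0 : za ≠ 0) (hzb : T.IsTors zb) (hzb0 : zb ≠ 0) (hv : zb.v = za.v) (hlt : za.v < T.rmin)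
    (hj : ∀ j : ℕ, ‖zb.val / za.val - (j : P.K)‖ = 1) (k j : ℕ) :
    ‖(T.chain zb k).val / (T.chain za k).val‖ = 1 ∧
      ‖(T.chain zb k).val / (T.chain za k).val - (j : P.K)‖ = 1 := by
  have := P.charP hP.x_p
  have := charP_resid (C := P.K) p
  have hn : ‖(T.chain zb k).val / (T.chain za k).val‖ = 1 := norm_one_of_vv_eq
    (DiscLaw.Pt.val_ne_zero (T.chain_ne_zero hzb hzb0 k))
    (DiscLaw.Pt.val_ne_zero (T.chain_ne_zero hza hza0 k))
    (show (T.chain zb k).v = (T.chain za k).v by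
      rw [(T.v_chain hzb hzb0 (hv ▸ hlt) k).1, (T.v_chain hza hza0 hlt k).1, hv])
  refine ⟨hn, le_antisymm ?_ (not_lt.mp fun hlt' => ?_)⟩
  · have := IsUltrametricDist.norm_add_le_max ((T.chain zb k).val / (T.chain za k).val) (-(j : P.K))
    rw [norm_neg, ← sub_eq_add_neg] at this
    exact this.trans (max_le hn.le (IsUltrametricDist.norm_natCast_le_one P.K j))
  · have hjn := IsUltrametricDist.norm_natCast_le_one P.K j
    have h1 : res ((T.chain zb k).val / (T.chain za k).val) = (j : Resid P.K) := by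
      rw [(res_eq_iff hn.le hjn).mpr hlt', res_of_le hjn, ← map_natCast (IsLocalRing.residue _)]
      rfl
    have h2 := T.res_chain_ratio hzb hza hzb0 hza0 hv (hv ▸ hlt) (Nat.zero_le k)
    rw [T.chain_zero, T.chain_zero, h1, ← iterateFrobenius_def, map_natCast] at h2
    have h0 : ‖zb.val / za.val‖ = 1 :=
      norm_one_of_vv_eq (DiscLaw.Pt.val_ne_zero hzb0) (DiscLaw.Pt.val_ne_zero hza0) hv
    have h3 : ‖zb.val / za.val - (j : P.K)‖ < 1 := (res_eq_iff h0.le hjn).mp (by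
      rw [h2, res_of_le hjn, ← map_natCast (IsLocalRing.residue _)]; rfl)
    exact h3.ne (hj j)

/-- The top coefficients of the pair differ by a power of the residue `μ`. -/
theorem norm_pair_coeff (hP : P.OnStratum h) {za zb : (P.law F).Pt} (hza : T.IsTors za)
    (hza0 : za ≠ 0) (hzb : T.IsTors zb) (hzb0 : zb ≠ 0) (hv : zb.v = za.v) (hlt : za.v < T.rmin)
    {δ : ℕ} (hδ : δ ≤ n) {N : ℕ} (hN : 1 ≤ N)
    (hs : T.Stable N (za.v / (p : ℝ) ^ δ)) (κ : ℤ) {q : ℕ}
    (hq : q = n - δ + h * N + κ.toNat) :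
    ‖P.rowXi T hP.x_p zb za δ N κ -
        ((T.chain zb 1).val / (T.chain za 1).val) ^ p ^ q * P.rowXi T hP.x_p za za δ N κ‖
      < P.rowB T za za δ N := by
  have := P.charP hP.x_p
  have hδN : δ ≤ n * N := hδ.trans (Nat.le_mul_of_pos_right n hN)
  have hV : 0 < za.v / (p : ℝ) ^ δ := div_pos (DiscLaw.Pt.v_pos hza0) (pow_pos T.p_pos _)
  have hZ := P.rowRef_ne_zero (T := T) hza hza0 δ N
  set Z := P.rowRef T za δ N with hZdef
  set lam := P.rowRef T zb δ N / Z with hlam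
  set yN := (T.chain zb N).val / (T.chain za N).val with hyN
  set y1 := (T.chain zb 1).val / (T.chain za 1).val with hy1
  have hn1 : ∀ i, ‖(T.chain zb i).val / (T.chain za i).val‖ = 1 := fun i => norm_one_of_vv_eq
    (DiscLaw.Pt.val_ne_zero (T.chain_ne_zero hzb hzb0 i))
    (DiscLaw.Pt.val_ne_zero (T.chain_ne_zero hza hza0 i))
    (show (T.chain zb i).v = (T.chain za i).v by
      rw [(T.v_chain hzb hzb0 (hv ▸ hlt) i).1, (T.v_chain hza hza0 hlt i).1, hv])
  have hlam' : lam = yN ^ p ^ (n * N - δ) := by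
    rw [hlam, hyN, div_pow, hZdef]; rfl
  have hl1 : ‖lam‖ = 1 := by rw [hlam', norm_pow, hyN, hn1, one_pow]
  have hres1 : res y1 = res yN ^ p ^ (n * (N - 1)) := by
    have := T.res_chain_ratio hzb hza hzb0 hza0 hv (hv ▸ hlt) hN
    rwa [Nat.add_sub_cancel' hP.lt.le] at this
  have hkey : res (lam ^ p ^ (h * N + κ.toNat)) = res (y1 ^ p ^ q) := by
    rw [res_pow hl1.le, hlam', res_pow (hn1 N).le, res_pow (hn1 1).le, hres1, ← pow_mul,
      ← pow_mul, ← pow_add, ← pow_add]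
    congr 2
    have h5 : n * (N - 1) + n = n * N := by rw [← Nat.mul_succ]; congr 1; omega
    omega
  have hzero : ‖lam ^ p ^ (h * N + κ.toNat) - y1 ^ p ^ q‖ < 1 :=
    (res_eq_iff (by rw [norm_pow, hl1, one_pow]) (by rw [norm_pow, hy1, hn1, one_pow])).mp hkey
  unfold rowXi rowB
  rw [hv, ← hZdef, ← hlam, div_self hZ]
  unfold Tower.rowCoeff
  rw [one_pow, mul_one, mul_comm (y1 ^ p ^ q), ← mul_sub, norm_mul]
  have hK : 0 < ‖T.normConst N (za.v / (p : ℝ) ^ δ) Z‖ := norm_pos_iff.mpr (T.normConst_ne_zero hZ)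
  refine lt_of_le_of_lt ?_ (mul_lt_of_lt_one_right hK hzero)
  refine mul_le_mul_of_nonneg_right ?_ (norm_nonneg _)
  rw [norm_mul, norm_pow]
  exact mul_le_of_le_one_right (norm_nonneg _)
    (pow_le_one₀ (norm_nonneg _) ((T.exists_coeffs N _ Z).choose_spec.1 _))

end Point

end Vale.Agent.P217
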