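import Vale.Agent.P217.Core.PointTower
import Vale.Agent.P217.Tors.Rows

/-!
# P217: the valuations of the `p`-torsion of a point with prescribed parameter valuations
-/

noncomputable section

namespace Vale.Agent.P217.Slopes

open Tors

set_option linter.unusedSectionVars false

variable {p n : ℕ} [Fact p.Prime]

lemma one_lt_cast_p : (1 : ℝ) < p := by exact_mod_cast (Fact.out : p.Prime).one_lt

lemma cast_p_pos : (0 : ℝ) < p := zero_lt_one.trans one_lt_cast_p

/-- The outer slopes. -/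
def rho (n i : ℕ) : ℝ := 1 + ((n : ℝ) - i) / (2 * n)

lemma one_lt_rho {i : ℕ} (hi : i < n) : 1 < rho n i := by
  have h1 : (i : ℝ) < n := by exact_mod_cast hi
  have h2 : (0 : ℝ) < n := lt_of_le_of_lt i.cast_nonneg h1
  have : 0 < ((n : ℝ) - i) / (2 * n) := div_pos (by linarith) (by linarith)
  rw [rho]; linarith

lemma rho_lt {i : ℕ} (hi : 1 ≤ i) (hin : i < n) : rho n i < 3 / 2 := by
  have h1 : (1 : ℝ) ≤ i := by exact_mod_cast hi
  have h2 : (i : ℝ) < n := by exact_mod_cast hin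
  have : ((n : ℝ) - i) / (2 * n) < 1 / 2 := by
    rw [div_lt_iff₀ (by linarith)]; linarith
  rw [rho]; linarith

lemma rho_add_gap {i m : ℕ} (him : i < m) (hn : 1 ≤ n) :
    rho n m + 1 / (2 * n) ≤ rho n i := by
  have h1 : (i : ℝ) + 1 ≤ m := by exact_mod_cast him
  have h2 : (1 : ℝ) ≤ n := by exact_mod_cast hn
  rw [rho, rho, add_assoc, ← add_div]
  gcongr
  linarith

lemma rho_injective (hn : 1 ≤ n) {i m : ℕ} (h : rho n i = rho n m) : i = m := by
  rcases lt_trichotomy i m with hlt | rfl | hlt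
  · have := rho_add_gap hlt hn
    have : (0 : ℝ) < 1 / (2 * n) := by positivity
    linarith
  · rfl
  · have := rho_add_gap hlt hn
    have : (0 : ℝ) < 1 / (2 * n) := by positivity
    linarith

lemma not_irrational_rho (i : ℕ) : ¬ Irrational (rho n i) := by
  intro h
  exact h ⟨1 + ((n : ℚ) - i) / (2 * n), by push_cast [rho]; ring⟩

variable (p n) in
/-- The outer valuations. -/
def vout (i : ℕ) : ℝ := ∑ m ∈ Finset.Ico i n, rho n m * ((p : ℝ) ^ (m + 1) - (p : ℝ) ^ m)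

lemma vout_self : vout p n n = 0 := by simp [vout]

lemma sum_pow_sub {a b : ℕ} (hab : a ≤ b) :
    ∑ m ∈ Finset.Ico a b, ((p : ℝ) ^ (m + 1) - (p : ℝ) ^ m) = (p : ℝ) ^ b - (p : ℝ) ^ a := by
  rw [Finset.sum_Ico_sub (fun m => (p : ℝ) ^ m) hab]

lemma vout_sub {a b : ℕ} (hab : a ≤ b) (hbn : b ≤ n) :
    vout p n a - vout p n b =
      ∑ m ∈ Finset.Ico a b, rho n m * ((p : ℝ) ^ (m + 1) - (p : ℝ) ^ m) := by
  rw [vout, vout, ← Finset.sum_Ico_consecutive _ hab hbn, add_sub_cancel_right]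

lemma diff_pos (m : ℕ) : 0 < (p : ℝ) ^ (m + 1) - (p : ℝ) ^ m := by
  have : (p : ℝ) ^ m < (p : ℝ) ^ (m + 1) := pow_lt_pow_right₀ one_lt_cast_p (Nat.lt_succ_self m)
  linarith

lemma vout_pos {i : ℕ} (hin : i < n) : 0 < vout p n i := by
  refine Finset.sum_pos (fun m hm => ?_) (Finset.nonempty_Ico.2 hin)
  rw [Finset.mem_Ico] at hm
  exact mul_pos (zero_lt_one.trans (one_lt_rho hm.2)) (diff_pos m)

lemma vout_le {i : ℕ} (hi : 1 ≤ i) (hin : i ≤ n) : vout p n i ≤ 2 * ((p : ℝ) ^ n - (p : ℝ) ^ i) := by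
  rw [← sum_pow_sub hin, Finset.mul_sum]
  refine Finset.sum_le_sum fun m hm => ?_
  rw [Finset.mem_Ico] at hm
  have := rho_lt (n := n) (hi.trans hm.1) hm.2
  exact mul_le_mul_of_nonneg_right (by linarith) (diff_pos m).le

/-- The line of index `i` lies strictly below the other outer lines. -/
lemma line_lt {j i l : ℕ} {τ : ℝ} (_hji : j ≤ i) (hin : i ≤ n) (hjl : j ≤ l) (hln : l ≤ n)
    (hne : l ≠ i) (hbelow : ∀ m, j ≤ m → m < i → τ < rho n m)
    (habove : ∀ m, i ≤ m → m < n → rho n m < τ) :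
    vout p n i + (p : ℝ) ^ i * τ < vout p n l + (p : ℝ) ^ l * τ := by
  rcases lt_or_gt_of_ne hne with hlt | hlt
  · have h1 := vout_sub (p := p) hlt.le hin
    have h2 := sum_pow_sub (p := p) hlt.le
    have h3 : τ * ((p : ℝ) ^ i - (p : ℝ) ^ l) <
        ∑ m ∈ Finset.Ico l i, rho n m * ((p : ℝ) ^ (m + 1) - (p : ℝ) ^ m) := by
      rw [← h2, Finset.mul_sum]
      refine Finset.sum_lt_sum_of_nonempty (Finset.nonempty_Ico.2 hlt) fun m hm => ?_
      rw [Finset.mem_Ico] at hm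
      exact mul_lt_mul_of_pos_right (hbelow m (hjl.trans hm.1) hm.2) (diff_pos m)
    linarith
  · have h1 := vout_sub (p := p) hlt.le hln
    have h2 := sum_pow_sub (p := p) hlt.le
    have h3 : ∑ m ∈ Finset.Ico i l, rho n m * ((p : ℝ) ^ (m + 1) - (p : ℝ) ^ m) <
        τ * ((p : ℝ) ^ l - (p : ℝ) ^ i) := by
      rw [← h2, Finset.mul_sum]
      refine Finset.sum_lt_sum_of_nonempty (Finset.nonempty_Ico.2 hlt) fun m hm => ?_
      rw [Finset.mem_Ico] at hm
      exact mul_lt_mul_of_pos_right (habove m hm.1 (hm.2.trans_le hln)) (diff_pos m)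
    linarith

lemma norm_eq_exp_neg_vv {C : Type*} [NormedField C] {z : C} (hz : z ≠ 0) :
    ‖z‖ = Real.exp (-vv z) := by
  rw [vv, neg_neg, Real.exp_log (norm_pos_iff.2 hz)]

lemma vv_of_norm {C : Type*} [NormedField C] {z : C} {a : ℝ} (hz : ‖z‖ = Real.exp (-a)) :
    vv z = a := by
  rw [vv, hz, Real.log_exp, neg_neg]

/-- Roots of rational multiples of a valuation. -/
lemma exists_vv_eq {C : Type*} [NormedField C] [IsAlgClosed C] {z : C} (hz : z ≠ 0) (a : ℕ)
    {b : ℕ} (hb : 0 < b) : ∃ w : C, w ≠ 0 ∧ (b : ℝ) * vv w = a * vv z := by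
  obtain ⟨w, hw⟩ := IsAlgClosed.exists_pow_nat_eq (z ^ a) hb
  refine ⟨w, fun h0 => pow_ne_zero a hz (by rw [← hw, h0, zero_pow hb.ne']), ?_⟩
  have h := congrArg (fun t : C => Real.log ‖t‖) hw
  simp only [norm_pow, Real.log_pow] at h
  simp only [vv]
  linarith

variable {F : FormalGroup (E0 p n)} [F.IsComm] {P : Point p n} {h j : ℕ}

/-- The hypotheses on the norms of the parameters. -/
structure Setup (P : Point p n) (h j : ℕ) (N B : ℝ) : Prop where
  hj : h + 2 ≤ j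
  hjn : j ≤ n
  stratum : P.OnStratum h
  norm_h : ‖P.x (u p n h)‖ = Real.exp (-N)
  norm_out : ∀ i, j ≤ i → i ≤ n → ‖P.x (u p n i)‖ = Real.exp (-vout p n i)
  norm_in : ∀ l, h < l → l < j → ‖P.x (u p n l)‖ ≤ Real.exp (-B)
  B_le : B ≤ N
  B_big : 2 * (p : ℝ) ^ n < B

variable {N B : ℝ} (S : Setup P h j N B)
include S

lemma norm_nsmul_eq (hF : IsHazewinkel p n F) {i : ℕ} (hi : j ≤ i) (hin : i ≤ n)
    (y : (P.law F).Pt) (hy : y.val ≠ 0) (hτ : y.v < 2)
    (hbelow : ∀ m, j ≤ m → m < i → y.v < rho n m)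
    (habove : ∀ m, i ≤ m → m < n → rho n m < y.v) :
    (p • y).val ≠ 0 ∧ (p • y).v = vout p n i + (p : ℝ) ^ i * y.v := by
  have hyn : ‖y.val‖ = Real.exp (-y.v) := norm_eq_exp_neg_vv hy
  have hτ0 : 0 < y.v := vv_pos hy y.norm_lt
  have hline : ∀ l : ℕ, ∀ a : ℝ,
      Real.exp (-a) * ‖y.val‖ ^ p ^ l = Real.exp (-(a + (p : ℝ) ^ l * y.v)) := by
    intro l a
    rw [hyn, ← Real.exp_nat_mul, ← Real.exp_add]
    push_cast
    ring_nf
  have hh : h ≤ i := by have := S.hj; omega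
  have key := Point.norm_nsmul_of_max P hF S.stratum y hh hin ?_
  · rw [S.norm_out i hi hin, hline] at key
    have hne : (p • y).val ≠ 0 := fun h0 => by
      rw [h0, norm_zero] at key; exact (Real.exp_pos _).ne key
    exact ⟨hne, vv_of_norm key⟩
  intro l hhl hln hne
  rw [S.norm_out i hi hin, hline]
  by_cases hjl : j ≤ l
  · rw [S.norm_out l hjl hln, hline]
    exact Real.exp_lt_exp.2 (neg_lt_neg (line_lt hi hin hjl hln hne hbelow habove))
  · have hle : ‖P.x (u p n l)‖ ≤ Real.exp (-B) := by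
      rcases hhl.eq_or_lt with rfl | hlt
      · rw [S.norm_h]; exact Real.exp_le_exp.2 (neg_le_neg S.B_le)
      · exact S.norm_in l hlt (by omega)
    refine (mul_le_mul_of_nonneg_right hle (by positivity)).trans_lt ?_
    rw [hline]
    refine Real.exp_lt_exp.2 (neg_lt_neg ?_)
    have h1 : vout p n i ≤ 2 * ((p : ℝ) ^ n - (p : ℝ) ^ i) :=
      vout_le (by have := S.hj; omega) hin
    have h2 : (p : ℝ) ^ i * y.v ≤ (p : ℝ) ^ i * 2 :=
      mul_le_mul_of_nonneg_left hτ.le (pow_nonneg cast_p_pos.le _)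
    have h3 : 0 ≤ (p : ℝ) ^ l * y.v := mul_nonneg (pow_nonneg cast_p_pos.le _) hτ0.le
    have h4 := S.B_big
    linarith

lemma norm_nsmul_eq_h (hF : IsHazewinkel p n F) (y : (P.law F).Pt) (hy : y.val ≠ 0)
    (hτ : N < y.v) : (p • y).val ≠ 0 ∧ (p • y).v = N + (p : ℝ) ^ h * y.v := by
  have hyn : ‖y.val‖ = Real.exp (-y.v) := norm_eq_exp_neg_vv hy
  have hτ0 : 0 < y.v := vv_pos hy y.norm_lt
  have hline : ∀ l : ℕ, ∀ a : ℝ,
      Real.exp (-a) * ‖y.val‖ ^ p ^ l = Real.exp (-(a + (p : ℝ) ^ l * y.v)) := by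
    intro l a
    rw [hyn, ← Real.exp_nat_mul, ← Real.exp_add]
    push_cast
    ring_nf
  have key := Point.norm_nsmul_of_max P hF S.stratum y le_rfl S.stratum.lt.le ?_
  · rw [S.norm_h, hline] at key
    have hne : (p • y).val ≠ 0 := fun h0 => by
      rw [h0, norm_zero] at key; exact (Real.exp_pos _).ne key
    exact ⟨hne, vv_of_norm key⟩
  intro l hhl hln hne
  rw [S.norm_h, hline]
  refine (mul_le_mul_of_nonneg_right (P.norm_le _) (by positivity)).trans_lt ?_
  rw [show (1 : ℝ) = Real.exp (-0) by simp, hline]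
  refine Real.exp_lt_exp.2 (neg_lt_neg ?_)
  have hlt : h < l := lt_of_le_of_ne hhl (Ne.symm hne)
  have h1 : (2 : ℝ) ≤ p := by exact_mod_cast (Fact.out : p.Prime).two_le
  have h2 : (p : ℝ) ^ (h + 1) ≤ (p : ℝ) ^ l := pow_le_pow_right₀ one_lt_cast_p.le hlt
  have h3 : (1 : ℝ) ≤ (p : ℝ) ^ h := one_le_pow₀ one_lt_cast_p.le
  have h4 : ((p : ℝ) ^ h + 1) * y.v ≤ (p : ℝ) ^ l * y.v := by
    refine mul_le_mul_of_nonneg_right ?_ hτ0.le
    rw [pow_succ] at h2
    nlinarith
  linarith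

variable (T : Tower (P.law F) p h (n - h))

omit S in
lemma root_nsmul {r : (P.law F).Pt} (hr : r ∈ T.roots 1) : (p • r).val = 0 := by
  have := (T.mem_roots 1 r).1 hr
  rw [pow_one] at this
  rw [this]; rfl

lemma one_le_root (hF : IsHazewinkel p n F) {r : (P.law F).Pt} (hr : r ∈ T.roots 1) (h0 : r ≠ 0) :
    1 ≤ r.v := by
  by_contra hlt
  push Not at hlt
  exact (norm_nsmul_eq S hF S.hjn le_rfl r (DiscLaw.Pt.val_ne_zero h0) (by linarith)
    (fun m hm hmn => hlt.trans (one_lt_rho hmn)) (fun m hm hmn => by omega)).1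
      (root_nsmul T hr)

omit S in
/-- The valuation of `p • y`, away from the valuations of the roots. -/
lemma v_nsmul_eq (y : (P.law F).Pt) (hy : y.val ≠ 0)
    (hgen : ∀ r ∈ T.roots 1, r ≠ 0 → r.v ≠ y.v) : (p • y).v = T.phiN 1 y.v := by
  have hy0 : y ≠ 0 := fun e => hy (by rw [e]; rfl)
  have hyr : y ∉ T.roots 1 := fun hm => hgen y hm hy0 rfl
  have h1 := T.v_smul_eq_phiN 1 hyr fun r hr => ?_
  · rwa [pow_one] at h1
  rcases eq_or_ne r 0 with rfl | h0
  · simp [DiscLaw.Pt.v]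
  · have hne : ‖y.val‖ ≠ ‖r.val‖ := fun e => hgen r hr h0
      ((vv_eq_iff (DiscLaw.Pt.val_ne_zero h0) hy).2 e.symm)
    have hmax : ‖y.val - r.val‖ = max ‖y.val‖ ‖r.val‖ := by
      rw [sub_eq_add_neg, IsUltrametricDist.norm_add_eq_max_of_norm_ne_norm (by rwa [norm_neg]),
        norm_neg]
    have hsub : y.val - r.val ≠ 0 := fun e => hne (by rw [sub_eq_zero.1 e])
    rw [DiscLaw.Pt.v, vv_le_iff hsub hy, hmax]
    exact le_max_left _ _

omit S in
lemma exists_point_v (z : P.K) (hz : z ≠ 0) (hzp : 0 < vv z) (q : ℚ) (hq : 0 < q) :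
    ∃ y : (P.law F).Pt, y.val ≠ 0 ∧ y.v = q * vv z := by
  obtain ⟨w, hw0, hw⟩ := exists_vv_eq hz q.num.natAbs q.den_pos
  have hnum : ((q.num.natAbs : ℕ) : ℝ) = (q.num : ℝ) := by
    rw [Nat.cast_natAbs, abs_of_pos (Rat.num_pos.2 hq)]
  have hden : (0 : ℝ) < q.den := by exact_mod_cast q.den_pos
  have hval : vv w = q * vv z := by
    rw [hnum] at hw
    rw [Rat.cast_def]
    field_simp
    linarith
  have hpos : 0 < vv w := by rw [hval]; exact mul_pos (by exact_mod_cast hq) hzp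
  have hlt : ‖w‖ < 1 := by
    rw [norm_eq_exp_neg_vv hw0]; exact Real.exp_lt_one_iff.2 (by linarith)
  exact ⟨(⟨w, hlt⟩ : {x : P.K // ‖x‖ < 1}), hw0, hval⟩

lemma exists_root_of_rho (hF : IsHazewinkel p n F) {i : ℕ} (hi : j ≤ i) (hin : i < n) :
    ∃ r ∈ T.roots 1, r ≠ 0 ∧ r.v = rho n i := by
  by_contra hno
  push Not at hno
  have hn : 1 ≤ n := by omega
  have hi1 : 1 ≤ i := by have := S.hj; omega
  -- a small rational step avoiding all root valuations
  obtain ⟨δ, hδ0, hδ⟩ : ∃ δ : ℝ, 0 < δ ∧ ∀ r ∈ T.roots 1, r ≠ 0 → δ ≤ |r.v - rho n i| := by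
    classical
    have hne : (insert (1 : ℝ) (T.nz.image fun r => |r.v - rho n i|)).Nonempty :=
      Finset.insert_nonempty _ _
    refine ⟨_, (Finset.lt_min'_iff _ hne).2 ?_, fun r hr h0 => Finset.min'_le _ _
      (Finset.mem_insert_of_mem (Finset.mem_image.2 ⟨r, T.mem_nz.2 ⟨hr, h0⟩, rfl⟩))⟩
    intro x hx
    rw [Finset.mem_insert, Finset.mem_image] at hx
    rcases hx with rfl | ⟨r, hr, rfl⟩
    · exact one_pos
    · exact abs_pos.2 (sub_ne_zero.2 (hno r (T.mem_nz.1 hr).1 (T.mem_nz.1 hr).2))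
  obtain ⟨ε, hε0, hε⟩ := exists_rat_btwn (show (0 : ℝ) <
    min δ (min (1 / (2 * n)) (1 / 2)) / 2 by
      have : (0 : ℝ) < 1 / (2 * n) := by positivity
      have := lt_min hδ0 (lt_min this (by norm_num : (0 : ℝ) < 1 / 2))
      linarith)
  have hεδ : 2 * (ε : ℝ) < δ := by linarith [min_le_left δ (min (1 / (2 * (n : ℝ))) (1 / 2))]
  have hεg : 2 * (ε : ℝ) < 1 / (2 * n) := by
    linarith [min_le_right δ (min (1 / (2 * (n : ℝ))) (1 / 2)),
      min_le_left (1 / (2 * (n : ℝ))) (1 / 2)]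
  have hεh : 2 * (ε : ℝ) < 1 / 2 := by
    linarith [min_le_right δ (min (1 / (2 * (n : ℝ))) (1 / 2)),
      min_le_right (1 / (2 * (n : ℝ))) (1 / 2)]
  have hρ1 := one_lt_rho hin
  have hρ2 := rho_lt hi1 hin
  -- a point of every rational valuation
  have hn1 : j ≤ n - 1 := by omega
  have hnn : n - 1 < n := by omega
  have hz : vv (P.x (u p n (n - 1))) = vout p n (n - 1) := vv_of_norm (S.norm_out _ hn1 hnn.le)
  have hz0 : P.x (u p n (n - 1)) ≠ 0 := norm_pos_iff.1 (by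
    rw [S.norm_out _ hn1 hnn.le]; exact Real.exp_pos _)
  have hzpos : 0 < vout p n (n - 1) := vout_pos hnn
  obtain ⟨qz, hqz⟩ : ∃ q : ℚ, (q : ℝ) = vout p n (n - 1) := by
    refine ⟨(1 + ((n : ℚ) - (n - 1 : ℕ)) / (2 * n)) * ((p : ℚ) ^ (n - 1 + 1) - (p : ℚ) ^ (n - 1)),
      ?_⟩
    rw [vout, Finset.sum_eq_single_of_mem (n - 1) (by simp; omega)
      (fun m hm hne => absurd (Finset.mem_Ico.1 hm) (by omega))]
    push_cast [rho]
    ring
  have mk : ∀ t : ℚ, 0 < rho n i + t →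
      ∃ y : (P.law F).Pt, y.val ≠ 0 ∧ y.v = rho n i + t := by
    intro t ht
    have hqzpos : (0 : ℚ) < qz := by exact_mod_cast hqz ▸ hzpos
    let q : ℚ := (1 + ((n : ℚ) - i) / (2 * n) + t) / qz
    have hq : (q : ℝ) * vout p n (n - 1) = rho n i + t := by
      rw [← hqz]
      have : (qz : ℝ) ≠ 0 := by exact_mod_cast hqzpos.ne'
      simp only [q, rho]
      push_cast
      field_simp
    have hqpos : 0 < q := by
      have : (0 : ℝ) < q := by
        by_contra hle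
        push Not at hle
        have := mul_nonpos_of_nonpos_of_nonneg hle hzpos.le
        linarith
      exact_mod_cast this
    obtain ⟨y, hy, hyv⟩ := exists_point_v (F := F) _ hz0 (hz.symm ▸ hzpos) q hqpos
    exact ⟨y, hy, by rw [hyv, hz, hq]⟩
  have hgen : ∀ t : ℝ, |t| < δ → ∀ r ∈ T.roots 1, r ≠ 0 → r.v ≠ rho n i + t := by
    intro t ht r hr h0 e
    have := hδ r hr h0
    rw [e, add_sub_cancel_left] at this
    linarith
  have hR : ∀ t : ℚ, 0 < (t : ℝ) → (t : ℝ) ≤ 2 * ε →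
      T.phiN 1 (rho n i + t) = vout p n i + (p : ℝ) ^ i * (rho n i + t) := by
    intro t ht ht'
    obtain ⟨y, hy, hyv⟩ := mk t (by linarith)
    have h1 := (norm_nsmul_eq S hF hi hin.le y hy (by rw [hyv]; linarith)
      (fun m _ hmi => by rw [hyv]; linarith [rho_add_gap hmi hn])
      (fun m him hmn => by
        rw [hyv]
        rcases him.eq_or_lt with rfl | hlt
        · linarith
        · have : (0 : ℝ) < 1 / (2 * n) := by positivity
          linarith [rho_add_gap hlt hn])).2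
    rw [v_nsmul_eq T y hy (fun r hr h0 => by
      rw [hyv]; exact hgen t (by rw [abs_of_pos ht]; linarith) r hr h0), hyv] at h1
    exact h1
  have hL : ∀ t : ℚ, 0 < (t : ℝ) → (t : ℝ) ≤ 2 * ε →
      T.phiN 1 (rho n i - t) = vout p n (i + 1) + (p : ℝ) ^ (i + 1) * (rho n i - t) := by
    intro t ht ht'
    obtain ⟨y, hy, hyv⟩ := mk (-t) (by push_cast; linarith)
    have hyv' : y.v = rho n i - t := by rw [hyv]; push_cast; ring
    have h1 := (norm_nsmul_eq S hF (i := i + 1) (by omega) hin y hy (by rw [hyv']; linarith)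
      (fun m _ hmi => by
        rw [hyv']
        rcases (Nat.lt_succ_iff.1 hmi).eq_or_lt with rfl | hlt
        · linarith
        · have : (0 : ℝ) < 1 / (2 * n) := by positivity
          linarith [rho_add_gap hlt hn])
      (fun m him hmn => by rw [hyv']; linarith [rho_add_gap (Nat.lt_of_succ_le him) hn])).2
    rw [v_nsmul_eq T y hy (fun r hr h0 => by
      rw [hyv', sub_eq_add_neg]
      exact hgen (-t) (by rw [abs_neg, abs_of_pos ht]; linarith) r hr h0), hyv'] at h1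
    exact h1
  have haff : T.phiN 1 (rho n i - (ε : ℝ)) - T.phiN 1 (rho n i - 2 * ε) =
      T.phiN 1 (rho n i + 2 * ε) - T.phiN 1 (rho n i + ε) := by
    unfold Tower.phiN
    rw [← mul_sub, ← mul_sub, ← Finset.sum_sub_distrib, ← Finset.sum_sub_distrib]
    congr 1
    refine Finset.sum_congr rfl fun r hr => ?_
    rcases eq_or_ne r 0 with rfl | h0
    · simp only [DiscLaw.Pt.mn_zero]; ring
    · simp only [DiscLaw.Pt.mn_of_ne h0]
      have hd := hδ r hr h0
      rcases abs_cases (r.v - rho n i) with ⟨he, _⟩ | ⟨he, _⟩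
      · rw [he] at hd
        rw [min_eq_left (by linarith), min_eq_left (by linarith), min_eq_left (by linarith),
          min_eq_left (by linarith)]
        ring
      · rw [he] at hd
        rw [min_eq_right (by linarith), min_eq_right (by linarith), min_eq_right (by linarith),
          min_eq_right (by linarith)]
  have e2 : ((2 * ε : ℚ) : ℝ) = 2 * (ε : ℝ) := by push_cast; ring
  have hR2 := hR (2 * ε) (by rw [e2]; linarith) (by rw [e2])
  have hL2 := hL (2 * ε) (by rw [e2]; linarith) (by rw [e2])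
  rw [e2] at hR2 hL2
  rw [hR2, hR ε hε0 (by linarith), hL2, hL ε hε0 (by linarith)] at haff
  have hlt : (p : ℝ) ^ i * ε < (p : ℝ) ^ (i + 1) * ε :=
    mul_lt_mul_of_pos_right (pow_lt_pow_right₀ one_lt_cast_p (Nat.lt_succ_self i)) hε0
  linarith

lemma exists_irrational_root (hF : IsHazewinkel p n F) (hirr : Irrational N) :
    ∃ r ∈ T.roots 1, r ≠ 0 ∧ Irrational r.v := by
  classical
  have hz : vv (P.x (u p n h)) = N := vv_of_norm S.norm_h
  have hz0 : P.x (u p n h) ≠ 0 := norm_pos_iff.1 (by rw [S.norm_h]; exact Real.exp_pos _)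
  have hN : 0 < N := by
    have := S.B_big; have := S.B_le
    have : (0 : ℝ) ≤ (p : ℝ) ^ n := pow_nonneg cast_p_pos.le _
    linarith
  obtain ⟨k, hk⟩ := exists_nat_gt (max T.rmax N / N)
  have hk' : max T.rmax N < k * N := (div_lt_iff₀ hN).1 hk
  have hkpos : (0 : ℝ) < k := by
    by_contra hle
    push Not at hle
    have := mul_nonpos_of_nonpos_of_nonneg hle hN.le
    linarith [le_max_right T.rmax N]
  obtain ⟨y, hy, hyv⟩ := exists_point_v (F := F) _ hz0 (hz.symm ▸ hN) (k : ℚ)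
    (by exact_mod_cast hkpos)
  rw [hz, Rat.cast_natCast] at hyv
  have h1 := (norm_nsmul_eq_h S hF y hy (by rw [hyv]; linarith [le_max_right T.rmax N])).2
  rw [v_nsmul_eq T y hy fun r hr h0 e => by
    have := T.le_rmax hr h0
    rw [e, hyv] at this
    linarith [le_max_left T.rmax N]] at h1
  have hsum : ∑ r ∈ T.roots 1, DiscLaw.Pt.mn y.v r = y.v + ∑ r ∈ T.nz, r.v := by
    rw [← Finset.add_sum_erase _ _ (T.zero_mem_roots 1), DiscLaw.Pt.mn_zero, Tower.nz]
    congr 1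
    refine Finset.sum_congr rfl fun r hr => ?_
    rw [Finset.mem_erase] at hr
    rw [DiscLaw.Pt.mn_of_ne hr.1, min_eq_right]
    linarith [T.le_rmax hr.2 hr.1, le_max_left T.rmax N]
  rw [Tower.phiN, mul_one, hsum, mul_add] at h1
  by_contra hno
  push Not at hno
  have hrat : ∀ r ∈ T.nz, ∃ q : ℚ, (q : ℝ) = r.v := fun r hr => by
    have := hno r (T.mem_nz.1 hr).1 (T.mem_nz.1 hr).2
    simpa [irrational_iff_ne_rational, Irrational] using this
  choose! q hq using hrat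
  refine hirr ⟨(p : ℚ) ^ h * ∑ r ∈ T.nz, q r, ?_⟩
  push_cast
  rw [Finset.sum_congr rfl fun r hr => hq r hr]
  linarith

end Vale.Agent.P217.Slopes
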