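import Vale.Agent.P217.Core.PointTower
import Vale.Agent.P217.Point.Exists
import Vale.Agent.P217.Tors.Rows
import Vale.Agent.P217.Core.Disp.SlopesAux

/-!
# P217: a point with rational outer slopes and an irrational valuation of `u h`

Outer slopes: distinct rationals `ρ_i` in `(1, 3/2)` for `j ≤ i < n`, decreasing in `i`;
`v (u n) = 0`, `v (u i) = v (u (i+1)) + ρ_i * (p ^ (i+1) - p ^ i)`; `v (u h)` is a large
irrational number. `norm_nsmul_of_max` then shows: every `ρ_i` is the valuation of a root, no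
nonzero root has valuation below `1`, and some root has irrational valuation.
-/

noncomputable section

namespace Vale.Agent.P217

open Tors

variable {p n : ℕ} [Fact p.Prime] {F : FormalGroup (E0 p n)}

theorem exists_slope_tower (hF : IsHazewinkel p n F) [F.IsComm] {I : Ideal (E0 p n)} {h j : ℕ}
    (hI : I.IsPrime) (h1 : 1 ≤ h) (hj : h + 2 ≤ j) (hjn : j ≤ n)
    (hle : heightIdeal p n h ≤ I) (hu : u p n h ∉ I)
    (hrad : (I ⊔ Ideal.span {u p n h}).radical = heightIdeal p n j) :
    ∃ (P : Point p n) (_hP : P.OnStratum h) (T : Tower (P.law F) p h (n - h)) (s : Finset ℝ),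
      RingHom.ker P.x = I ∧ P.PDegLE (n - j + 1) ∧ s.card + 1 = n - j + 1 ∧
      (∀ ρ ∈ s, ρ < (p : ℝ) ^ (h + (n - h)) * T.rmin ∧ ¬ Irrational ρ ∧
        ∃ r ∈ T.roots 1, r ≠ 0 ∧ r.v = ρ) ∧
      ∃ r ∈ T.roots 1, r ≠ 0 ∧ Irrational r.v := by
  classical
  haveI := hI
  obtain ⟨M, hM, hpt⟩ := exists_point (I := I) h1 (show h < j by omega) hjn hle hu hrad
  let B : ℝ := 2 * (p : ℝ) ^ n + 2
  let N : ℝ := (M * (2 * p ^ n + 2) : ℕ) + Real.sqrt 2
  have hp0 : (0 : ℝ) < p := Slopes.cast_p_pos
  have hB0 : 0 < B := by positivity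
  have hM' : (1 : ℝ) ≤ M := by exact_mod_cast hM
  have hs2 : 0 < Real.sqrt 2 := by positivity
  have hMB : (M : ℝ) * B ≤ N := by
    simp only [N, B]; push_cast; linarith
  have hBN : B ≤ N := (le_mul_of_one_le_left hB0.le hM').trans hMB
  let e : ℕ → ℝ := fun i => if i = h then N else if j ≤ i ∧ i < n then Slopes.vout p n i else 1
  have he : ∀ i, 0 < e i := by
    intro i
    simp only [e]
    split_ifs with ha hb
    · linarith
    · exact Slopes.vout_pos hb.2
    · exact one_pos
  obtain ⟨P, hker, hPh, hPout, hPin, hdeg⟩ :=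
    hpt (fun i => Real.exp (-e i)) fun i =>
      ⟨Real.exp_pos _, Real.exp_lt_one_iff.2 (by linarith [he i])⟩
  have hz : ∀ a, a ∈ I → P.x a = 0 := fun a ha => by
    rwa [← RingHom.mem_ker, hker]
  have hgen : insert (p : E0 p n) (u p n '' Set.Ico 1 h) ⊆ I := fun a ha => hle (by
    rw [heightIdeal, if_neg (by omega)]; exact Ideal.subset_span ha)
  have hP : P.OnStratum h := {
    one_le := h1
    lt := by omega
    x_p := hz _ (hgen (Set.mem_insert _ _))
    x_low := fun l hl hlh => hz _ (hgen (Set.mem_insert_of_mem _ ⟨l, ⟨hl, hlh⟩, rfl⟩))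
    x_ne := fun h0 => hu (by rw [← hker]; exact h0) }
  have S : Slopes.Setup P h j N B := {
    hj := hj
    hjn := hjn
    stratum := hP
    norm_h := by rw [hPh]; simp [e]
    norm_out := fun i hi hin => by
      rcases hin.eq_or_lt with rfl | hlt
      · have hun : u p i i = 1 := by simp [u]
        rw [hun, map_one, norm_one, Slopes.vout_self, neg_zero, Real.exp_zero]
      · rw [hPout i hi hlt]
        simp [e, show i ≠ h by omega, hi, hlt]
    norm_in := fun l hl hlj => by
      have h2 := hPin l hl hlj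
      refine le_of_pow_le_pow_left₀ (by omega) (Real.exp_pos _).le (h2.trans ?_)
      simp only [e, if_true]
      rw [← Real.exp_nat_mul]
      exact Real.exp_le_exp.2 (by linarith)
    B_le := hBN
    B_big := by simp only [B]; linarith }
  obtain ⟨T⟩ := P.exists_tower (F := F) hF hP
  have hirr : Irrational N := irrational_sqrt_two.natCast_add _
  refine ⟨P, hP, T, (Finset.Ico j n).image (Slopes.rho n), hker, hdeg, ?_, ?_,
    Slopes.exists_irrational_root S T hF hirr⟩
  · rw [Finset.card_image_of_injOn fun a _ b _ hab => Slopes.rho_injective (by omega) hab,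
      Nat.card_Ico]
  · intro ρ hρ
    obtain ⟨i, hi, rfl⟩ := Finset.mem_image.1 hρ
    rw [Finset.mem_Ico] at hi
    refine ⟨?_, Slopes.not_irrational_rho i, Slopes.exists_root_of_rho S T hF hi.1 hi.2⟩
    have hrmin : 1 ≤ T.rmin := Finset.le_inf' _ _ fun r hr =>
      Slopes.one_le_root S T hF (T.mem_nz.1 hr).1 (T.mem_nz.1 hr).2
    have h2 : (2 : ℝ) ≤ (p : ℝ) ^ (h + (n - h)) := by
      calc (2 : ℝ) ≤ p := by exact_mod_cast (Fact.out : p.Prime).two_le
        _ ≤ _ := le_self_pow₀ Slopes.one_lt_cast_p.le (by omega)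
    have h3 := Slopes.rho_lt (n := n) (show 1 ≤ i by omega) hi.2
    have := le_mul_of_one_le_right (by linarith : (0 : ℝ) ≤ (p : ℝ) ^ (h + (n - h))) hrmin
    linarith

end Vale.Agent.P217
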